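import Crest.Agent.N255.Da.Graph

/-!
# Row 255 (helper40): the Magnus labels modulo degree three on the edges of the chamber

`g a b = 1 + ∑ x t a b X_t + ∑ y t u a b X_t X_u` is flat modulo degree three on the cliques of `Da.Γ`,
and on the wall `s` it is `X_s ^ mer * l_s ^ lon`.
-/

set_option autoImplicit false

namespace Crest.Agent.N255.Gd

open Da

/-- data -/
def XP : List (List ℕ) := [
  [1053, 1054, 1168, 1180, 1262, 1380, 1388, 1470, 1471, 1584, 1588, 10048, 10049, 10051, 10052, 10053,
   10055, 10257, 10258, 10261, 10466, 10540, 10674, 10675, 10679, 10736, 10739, 10740, 10748, 10884, 10885,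
   10887, 11093, 11511, 11572, 15252, 15253, 15273, 15274, 15461, 15463, 15482, 15668, 15671, 15690, 15691,
   15900, 16289, 16290, 16291, 16314, 16318, 26013, 26014, 26112, 26113, 26222, 26321, 26323, 26430, 26431,
   26528, 26531],
  [13388, 13389, 13391, 13597, 14015, 14216, 14609, 14610, 14613, 14614, 14615, 14634, 18376, 18380, 18584,
   18588, 18589, 18797, 18799, 19000, 19004, 19007, 19420, 19421, 19629, 19631, 19836, 19839, 28131, 28135,
   28208, 28212, 28962, 28966, 28967, 29044, 29052, 29794, 29795, 29872, 29884],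
  [4397, 4398, 4528, 4540, 4606, 4740, 4748, 4814, 4815, 4944, 4948, 5853, 5855, 5968, 5984, 5985, 10036,
   10037, 10052, 10053, 10084, 10085, 10245, 10261, 10293, 11499, 13380, 13381, 13396, 13589, 14613, 14629,
   14634, 14650, 16724, 16812, 17957, 17978, 17989, 18164, 18180, 18186, 18187, 18196, 20052, 20068, 20069,
   20128, 20131, 20132, 20140, 20277, 20340, 21269, 21306, 21317, 21322, 32685, 32686, 32800, 32801, 32894,
   33009, 33011, 33102, 33103, 33216, 33219],
  [10871, 10887, 10919, 11078, 12118, 12119, 14215, 15446, 15447, 15463, 15655, 15671, 17744, 17745, 17760,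
   17761, 17766, 17777, 18791, 18823, 18999, 19031, 20903, 22102, 22103, 22151, 22311, 22359, 34832, 34833,
   34896, 34900, 35648, 35649, 35665, 35732, 35740, 36480, 36496, 36560, 36572],
  [7741, 7742, 7888, 7900, 7950, 8100, 8108, 8158, 8304, 8308, 9197, 9328, 9344, 9345, 9822, 9952, 9955,
   9968, 9969, 9972, 10033, 10037, 10045, 10049, 10053, 10061, 10869, 10873, 10885, 11705, 11852, 12537,
   12541, 12557, 12672, 12675, 12676, 12684, 13377, 13381, 13389, 14213, 15885, 16004, 17745, 17749, 17766,
   17770, 18581, 18589, 18602, 19409, 19421, 19434, 19438, 20274, 21893, 21897, 21901, 21930, 21946, 39357,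
   39358, 39488, 39489, 39566, 39697, 39699, 39774, 39904, 39907],
  [10289, 10293, 10301, 11125, 12797, 13601, 15236, 15240, 15252, 15256, 15260, 15273, 17137, 17153, 17969,
   17985, 17989, 18821, 18829, 19633, 19649, 19661, 21313, 21317, 22149, 22157, 22977, 22989, 41452, 41468,
   41584, 41588, 42280, 42296, 42300, 42420, 42428, 43112, 43116, 43248, 43260]]

/-- data -/
def XM : List (List ℕ) := [
  [2500, 2504, 2505, 2507, 2620, 2708, 2713, 2714, 2828, 2922, 3124, 3130, 3131, 3244, 13388, 13389, 13391,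
   13597, 14015, 14216, 14609, 14610, 14613, 14614, 14615, 14634, 18376, 18380, 18584, 18588, 18589, 18797,
   18799, 19000, 19004, 19007, 19420, 19421, 19629, 19631, 19836, 19839, 23420, 23838, 26628, 28131, 28135,
   28294, 28338, 28342, 28343, 28962, 28966, 28967, 29794, 29795],
  [10048, 10049, 10051, 10052, 10053, 10055, 10257, 10258, 10261, 10466, 10674, 10675, 10679, 10739, 10884,
   10885, 10887, 11093, 11511, 15252, 15253, 15273, 15274, 15461, 15463, 15482, 15668, 15671, 15690, 15691,
   15900, 16289, 16290, 16291, 16314, 16318, 26755, 28427],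
  [6052, 6057, 6058, 6188, 6266, 6468, 6474, 6475, 6604, 10871, 10887, 10919, 11078, 12118, 12119, 14215,
   15446, 15447, 15463, 15655, 15671, 17744, 17745, 17760, 17761, 17766, 17777, 18791, 18823, 18999, 19031,
   20903, 22102, 22103, 22151, 22311, 22359, 30108, 30526, 33300, 34832, 34833, 34966, 35024, 35025, 35041,
   35648, 35649, 35665, 36480, 36496],
  [10036, 10037, 10052, 10053, 10084, 10085, 10245, 10261, 10293, 11499, 13380, 13381, 13396, 13589, 14613,
   14629, 14634, 14650, 16724, 17957, 17978, 17989, 18164, 18180, 18186, 18187, 18196, 20052, 20068, 20069,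
   20131, 20277, 21269, 21306, 21317, 21322, 33443, 35115],
  [9396, 9401, 9402, 9548, 9610, 10289, 10293, 10301, 11125, 12797, 13601, 15236, 15240, 15252, 15256, 15260,
   15273, 17137, 17153, 17969, 17985, 17989, 18821, 18829, 19633, 19649, 19661, 21313, 21317, 22149, 22157,
   22977, 22989, 36796, 37214, 39972, 41023, 41452, 41468, 41638, 41656, 41672, 41676, 42280, 42296, 42300,
   43112, 43116],
  [10033, 10037, 10045, 10049, 10053, 10061, 10869, 10873, 10885, 11705, 12537, 12541, 12557, 12675, 13377,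
   13381, 13389, 14213, 15885, 17745, 17749, 17766, 17770, 18581, 18589, 18602, 19409, 19421, 19434, 19438,
   20274, 21893, 21897, 21901, 21930, 21946, 40131, 41803]]

/-- data -/
def YP : List (List ℕ) := [
  [],
  [],
  [6697, 6898, 6905, 6906, 8361, 8500, 8508, 9124, 9132, 9193, 9197, 9328, 9340, 9952, 9964, 10052, 10053,
   10261, 10872, 10884, 10885, 10888, 11093, 12098, 12138, 12536, 12684, 21896, 22312, 38240, 38244, 39076,
   39084, 39904, 39916, 40140, 40393, 40528, 40532, 40558, 41152, 41360, 41364],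
  [6699, 6851, 7059, 7314, 7322, 7323, 7475, 7888, 8363, 8515, 8723, 9195, 9199, 9344, 9345, 9552, 9553,
   12672, 12675, 12676, 12883, 14216, 14613, 14634, 15880, 16004, 16258, 16298, 18376, 18584, 19000, 36787,
   36801, 38315, 38459, 42832, 42833, 43041, 43043, 43248, 43251],
  [3355, 3491, 3699, 3970, 3978, 3979, 4115, 4528, 5019, 5155, 5363, 5851, 5855, 5984, 5985, 6192, 6193,
   13601, 17137, 17969, 19633, 20128, 20131, 20132, 20257, 20340, 20963, 21858, 21929, 30099, 30113, 31643,
   31771, 36144, 36145, 36353, 36355, 36560, 36563],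
  [3845, 3853, 4673, 4685, 4803, 4804, 4880, 4881, 4892, 4893, 5636, 5764, 5772, 6468, 6592, 6604, 13377,
   13381, 13389, 14213, 17745, 17749, 17766, 17770, 17777, 17781, 18581, 18589, 18602, 18613, 18621, 19409,
   19421, 19434, 19438, 19441, 19453, 31552, 31556, 32388, 32396, 33216, 33228, 33300, 33452, 33720, 33721,
   33840, 33844, 33870, 34464, 34672, 34676, 34755, 34832, 34833, 34836, 34837, 35041, 35665, 35669],
  [],
  [],
  [7129, 7131, 7729, 7732, 7755, 7756, 7759, 7888, 7963, 8564, 8723, 9396, 9552, 9553, 11705, 11707, 11752,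
   14613, 15236, 15237, 15241, 15445, 15446, 15447, 15449, 15451, 15463, 15652, 15655, 15659, 15671, 36787,
   36801, 38312, 38315, 38459, 42281, 42832, 42833, 43041, 43043, 43089, 43113, 43116, 43117, 43248, 43251],
  [7149, 7151, 7980, 7983, 8147, 8148, 8172, 8175, 8188, 8191, 8980, 9124, 9132, 9812, 9952, 9964, 10052,
   10053, 10261, 10884, 10885, 11093, 15252, 15253, 15260, 15261, 15273, 15274, 15461, 15469, 15471, 15482,
   15668, 15676, 15679, 15690, 15691, 38240, 38244, 39076, 39084, 39904, 39916, 39972, 40140, 40392, 40393,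
   40528, 40532, 40558, 41152, 41360, 41364, 41427, 41452, 41453, 41468, 41469, 41676, 42300, 42301],
  [3845, 3853, 4673, 4685, 4803, 4804, 4880, 4881, 4892, 4893, 5636, 5764, 5772, 6468, 6592, 6604, 13377,
   13381, 13389, 14213, 17745, 17749, 17766, 17770, 17777, 17781, 18581, 18589, 18602, 18613, 18621, 19409,
   19421, 19434, 19438, 19441, 19453, 31552, 31556, 32388, 32396, 33216, 33228, 33300, 33452, 33720, 33721,
   33840, 33844, 33870, 34464, 34672, 34676, 34755, 34832, 34833, 34836, 34837, 35041, 35665, 35669],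
  [3355, 3491, 3699, 3970, 3978, 3979, 4115, 4528, 5019, 5155, 5363, 5851, 5855, 5984, 5985, 6192, 6193,
   13601, 17137, 17969, 19633, 20128, 20131, 20132, 20257, 20340, 20963, 21858, 21929, 30099, 30113, 31643,
   31771, 36144, 36145, 36353, 36355, 36560, 36563],
  [],
  [],
  [],
  [],
  [9, 210, 217, 218, 1673, 1780, 1788, 2404, 2412, 2505, 2509, 2608, 2620, 3232, 3244, 10037, 10053, 10242,
   10245, 10246, 10261, 10658, 10748, 13381, 13589, 16274, 17058, 17142, 22930, 24864, 24868, 25700, 25708,
   26528, 26540, 26764, 27049, 27152, 27156, 27182, 27776, 27984, 27988],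
  [11, 131, 339, 626, 634, 635, 755, 1168, 1675, 1795, 2003, 2507, 2511, 2624, 2625, 2832, 2833, 10736,
   10739, 10740, 11078, 11494, 11572, 12118, 14067, 15446, 17745, 17766, 18098, 18182, 22102, 23411, 23425,
   24971, 25083, 29456, 29457, 29665, 29667, 29872, 29875],
  [],
  [],
  [],
  [],
  [11, 131, 339, 626, 634, 635, 755, 1168, 1675, 1795, 2003, 2507, 2511, 2624, 2625, 2832, 2833, 10736,
   10739, 10740, 11078, 11494, 11572, 12118, 14067, 15446, 17745, 17766, 18098, 18182, 22102, 23411, 23425,
   24971, 25083, 29456, 29457, 29665, 29667, 29872, 29875],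
  [487, 519, 1303, 1351, 1459, 1460, 1507, 1511, 1555, 1559, 2292, 2404, 2412, 3124, 3232, 3244, 10037,
   10053, 10245, 10261, 13381, 13589, 14613, 14615, 14629, 14631, 14634, 14650, 17957, 17959, 17978, 17991,
   21269, 21271, 21306, 21319, 21322, 24864, 24868, 25700, 25708, 26528, 26540, 26628, 26764, 27048, 27049,
   27152, 27156, 27182, 27776, 27984, 27988, 28083, 28131, 28135, 28147, 28151, 28343, 28967, 28983],
  [],
  [],
  [],
  [],
  [],
  [],
  [],
  [],
  [],
  [],
  [],
  []]

/-- data -/
def YM : List (List ℕ) := [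
  [],
  [10048, 10049, 10051, 10052, 10053, 10055, 10257, 10258, 10261, 10466, 10674, 10675, 10679, 10739, 10884,
   10885, 10887, 11093, 11511, 15252, 15253, 15273, 15274, 15461, 15463, 15482, 15668, 15671, 15690, 15691,
   15900, 16289, 16290, 16291, 16314, 16318],
  [7129, 7131, 7729, 7732, 7755, 7756, 7759, 7888, 7963, 8564, 8723, 9396, 9552, 9553, 11705, 11707, 11752,
   14613, 15236, 15237, 15241, 15445, 15446, 15447, 15449, 15451, 15463, 15652, 15655, 15659, 15671, 36787,
   36801, 38312, 38315, 38459, 42281, 42832, 42833, 43041, 43043, 43089, 43113, 43116, 43117, 43248, 43251],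
  [7149, 7151, 7980, 7983, 8147, 8148, 8172, 8175, 8188, 8191, 8980, 9124, 9132, 9812, 9952, 9964, 10052,
   10053, 10261, 10884, 10885, 11093, 15252, 15253, 15260, 15261, 15273, 15274, 15461, 15469, 15471, 15482,
   15668, 15676, 15679, 15690, 15691, 38240, 38244, 39076, 39084, 39904, 39916, 39972, 40140, 40392, 40393,
   40528, 40532, 40558, 41152, 41360, 41364, 41427, 41452, 41453, 41468, 41469, 41676, 42300, 42301],
  [3845, 3853, 4673, 4685, 4803, 4804, 4880, 4881, 4892, 4893, 5636, 5764, 5772, 6468, 6592, 6604, 13377,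
   13381, 13389, 14213, 17745, 17749, 17766, 17770, 17777, 17781, 18581, 18589, 18602, 18613, 18621, 19409,
   19421, 19434, 19438, 19441, 19453, 31552, 31556, 32388, 32396, 33216, 33228, 33300, 33452, 33720, 33721,
   33840, 33844, 33870, 34464, 34672, 34676, 34755, 34832, 34833, 34836, 34837, 35041, 35665, 35669],
  [3355, 3491, 3699, 3970, 3978, 3979, 4115, 4528, 5019, 5155, 5363, 5851, 5855, 5984, 5985, 6192, 6193,
   13601, 17137, 17969, 19633, 20128, 20131, 20132, 20257, 20340, 20963, 21858, 21929, 30099, 30113, 31643,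
   31771, 36144, 36145, 36353, 36355, 36560, 36563],
  [],
  [],
  [6697, 6898, 6905, 6906, 8361, 8500, 8508, 9124, 9132, 9193, 9197, 9328, 9340, 9952, 9964, 10052, 10053,
   10261, 10872, 10884, 10885, 10888, 11093, 12098, 12138, 12536, 12684, 21896, 22312, 38240, 38244, 39076,
   39084, 39904, 39916, 40140, 40393, 40528, 40532, 40558, 41152, 41360, 41364],
  [6699, 6851, 7059, 7314, 7322, 7323, 7475, 7888, 8363, 8515, 8723, 9195, 9199, 9344, 9345, 9552, 9553,
   12672, 12675, 12676, 12883, 14216, 14613, 14634, 15880, 16004, 16258, 16298, 18376, 18584, 19000, 36787,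
   36801, 38315, 38459, 42832, 42833, 43041, 43043, 43248, 43251],
  [3355, 3491, 3699, 3970, 3978, 3979, 4115, 4528, 5019, 5155, 5363, 5851, 5855, 5984, 5985, 6192, 6193,
   13601, 17137, 17969, 19633, 20128, 20131, 20132, 20257, 20340, 20963, 21858, 21929, 30099, 30113, 31643,
   31771, 36144, 36145, 36353, 36355, 36560, 36563],
  [3845, 3853, 4673, 4685, 4803, 4804, 4880, 4881, 4892, 4893, 5636, 5764, 5772, 6468, 6592, 6604, 13377,
   13381, 13389, 14213, 17745, 17749, 17766, 17770, 17777, 17781, 18581, 18589, 18602, 18613, 18621, 19409,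
   19421, 19434, 19438, 19441, 19453, 31552, 31556, 32388, 32396, 33216, 33228, 33300, 33452, 33720, 33721,
   33840, 33844, 33870, 34464, 34672, 34676, 34755, 34832, 34833, 34836, 34837, 35041, 35665, 35669],
  [],
  [],
  [],
  [10036, 10037, 10052, 10053, 10084, 10085, 10245, 10261, 10293, 11499, 13380, 13381, 13396, 13589, 14613,
   14629, 14634, 14650, 16724, 17957, 17978, 17989, 18164, 18180, 18186, 18187, 18196, 20052, 20068, 20069,
   20131, 20277, 21269, 21306, 21317, 21322],
  [482, 514, 1041, 1044, 1091, 1138, 1139, 1168, 1346, 1876, 2003, 2708, 2832, 2833, 10462, 10466, 10498,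
   14609, 14625, 14626, 17745, 17953, 17954, 17969, 17985, 17986, 17989, 21265, 21313, 21314, 21317, 23411,
   23425, 24968, 24971, 25083, 28978, 29456, 29457, 29665, 29667, 29745, 29795, 29810, 29811, 29872, 29875],
  [487, 519, 1303, 1351, 1459, 1460, 1507, 1511, 1555, 1559, 2292, 2404, 2412, 3124, 3232, 3244, 10037,
   10053, 10245, 10261, 13381, 13589, 14613, 14615, 14629, 14631, 14634, 14650, 17957, 17959, 17978, 17991,
   21269, 21271, 21306, 21319, 21322, 24864, 24868, 25700, 25708, 26528, 26540, 26628, 26764, 27048, 27049,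
   27152, 27156, 27182, 27776, 27984, 27988, 28083, 28131, 28135, 28147, 28151, 28343, 28967, 28983],
  [],
  [],
  [],
  [],
  [487, 519, 1303, 1351, 1459, 1460, 1507, 1511, 1555, 1559, 2292, 2404, 2412, 3124, 3232, 3244, 10037,
   10053, 10245, 10261, 13381, 13589, 14613, 14615, 14629, 14631, 14634, 14650, 17957, 17959, 17978, 17991,
   21269, 21271, 21306, 21319, 21322, 24864, 24868, 25700, 25708, 26528, 26540, 26628, 26764, 27048, 27049,
   27152, 27156, 27182, 27776, 27984, 27988, 28083, 28131, 28135, 28147, 28151, 28343, 28967, 28983],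
  [11, 131, 339, 626, 634, 635, 755, 1168, 1675, 1795, 2003, 2507, 2511, 2624, 2625, 2832, 2833, 10736,
   10739, 10740, 11078, 11494, 11572, 12118, 14067, 15446, 17745, 17766, 18098, 18182, 22102, 23411, 23425,
   24971, 25083, 29456, 29457, 29665, 29667, 29872, 29875],
  [],
  [],
  [],
  [],
  [],
  [10033, 10037, 10045, 10049, 10053, 10061, 10869, 10873, 10885, 11705, 12537, 12541, 12557, 12675, 13377,
   13381, 13389, 14213, 15885, 17745, 17749, 17766, 17770, 18581, 18589, 18602, 19409, 19421, 19434, 19438,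
   20274, 21893, 21897, 21901, 21930, 21946],
  [],
  [],
  [],
  [],
  [],
  []]

/-- the number with the given bits -/
def tb : List ℕ → ℕ
  | [] => 0
  | a :: l => 2 ^ a ||| tb l

/-- a table -/
def pl (T : List (List ℕ)) (k : ℕ) : ℕ := tb (T.getD k [])

/-- the value on an edge ordered by the colours -/
def rd (P M : List (List ℕ)) (k a b : ℕ) : ℤ :=
  bif (pl P k).testBit (a * 208 + b) then 1 else bif (pl M k).testBit (a * 208 + b) then -1 else 0

/-- conjunction over the bits -/
def alB (f : ℕ → Bool) : ℕ → ℕ → Bool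
  | 0, L => L == 0
  | k + 1, L => bif L == 0 then true else f L.log2 && alB f k (L ^^^ 2 ^ L.log2)

theorem alB_sound {f : ℕ → Bool} : ∀ k L, alB f k L = true → ∀ c, L.testBit c = true → f c = true := by
  intro k
  induction k with
  | zero => intro L h c hc; rw [alB, beq_iff_eq] at h; simp [h] at hc
  | succ k ih =>
    intro L h c hc
    rw [alB] at h
    by_cases e : L = 0
    · simp [e] at hc
    · rw [show (L == 0) = false by simpa using e, cond_false, Bool.and_eq_true] at h
      by_cases d : L.log2 = c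
      · exact d ▸ h.1
      · exact ih _ h.2 c (by rw [Nat.testBit_xor, Nat.testBit_two_pow_of_ne d, hc]; rfl)

/-- the test on one triangle -/
def tri (a b c : ℕ) : Bool :=
  al (fun t => rd XP XM t a c == rd XP XM t a b + rd XP XM t b c &&
    al (fun u => !Nat.blt t u || rd YP YM (6 * t + u) a c ==
      rd YP YM (6 * t + u) a b + rd YP YM (6 * t + u) b c + rd XP XM t a b * rd XP XM u b c) 6) 6

theorem chk_tri : al (fun a => alB (fun b => !Nat.blt (cn a) (cn b) ||
    alB (fun c => !Nat.blt (cn b) (cn c) || tri a b c) 208 (nb a &&& nb b)) 208 (nb a)) 208 = true := by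
  decide +kernel

/-- the one cocycles on codes -/
def xN (t a b : ℕ) : ℤ :=
  if cn a < cn b then rd XP XM t a b else if cn b < cn a then -rd XP XM t b a else 0

/-- the quadratic part for `t < u` on codes -/
def yL (t u a b : ℕ) : ℤ :=
  if cn a < cn b then rd YP YM (6 * t + u) a b else
    if cn b < cn a then rd XP XM t b a * rd XP XM u b a - rd YP YM (6 * t + u) b a else 0

/-- the quadratic part on codes -/
def yN (t u a b : ℕ) : ℤ :=
  if t < u then yL t u a b else if u < t then xN t a b * xN u a b - yL u t a b else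
    xN t a b * (xN t a b - 1) / 2

theorem xN_self (t a : ℕ) : xN t a a = 0 := by simp [xN]

theorem yL_self (t u a : ℕ) : yL t u a a = 0 := by simp [yL]

theorem xN_swap (t a b : ℕ) : xN t b a = -xN t a b := by
  unfold xN; split_ifs <;> omega

theorem yL_swap (t u a b : ℕ) : yL t u b a = xN t a b * xN u a b - yL t u a b := by
  unfold xN yL; split_ifs <;> first | omega | simp

/-- the flatness on one ordered triple -/
def Co (a b c : ℕ) : Prop :=
  (∀ t < 6, xN t a c = xN t a b + xN t b c) ∧
    ∀ t < 6, ∀ u < 6, t < u → yL t u a c = yL t u a b + yL t u b c + xN t a b * xN u b c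

theorem Co.sw1 {a b c : ℕ} (h : Co a b c) : Co b a c :=
  ⟨fun t ht => by rw [xN_swap t a b, h.1 t ht]; ring, fun t ht u hu e => by
    rw [yL_swap t u a b, xN_swap t a b, h.2 t ht u hu e, h.1 u hu]; ring⟩

theorem Co.sw2 {a b c : ℕ} (h : Co a b c) : Co a c b :=
  ⟨fun t ht => by rw [xN_swap t b c, h.1 t ht]; ring, fun t ht u hu e => by
    rw [yL_swap t u b c, xN_swap u b c, h.2 t ht u hu e, h.1 t ht]; ring⟩

theorem co_ord {a b c : ℕ} (ha : a < 208) (ab : (nb a).testBit b = true) (ac : (nb a).testBit c = true)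
    (bc : (nb b).testBit c = true) (h1 : cn a < cn b) (h2 : cn b < cn c) : Co a b c := by
  have k := alB_sound _ _ (al_iff.1 chk_tri a ha) b ab
  rw [Nat.blt_eq.mpr h1, Bool.not_true, Bool.false_or] at k
  have k := alB_sound _ _ k c (by rw [Nat.testBit_and, ac, bc]; rfl)
  rw [Nat.blt_eq.mpr h2, Bool.not_true, Bool.false_or] at k
  have h3 := h1.trans h2
  refine ⟨fun t ht => ?_, fun t ht u hu e => ?_⟩
  · have := al_iff.1 k t ht
    rw [Bool.and_eq_true, beq_iff_eq] at this
    simp only [xN, if_pos h1, if_pos h2, if_pos h3, this.1]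
  · have := al_iff.1 k t ht
    rw [Bool.and_eq_true] at this
    have := al_iff.1 this.2 u hu
    rw [Nat.blt_eq.mpr e, Bool.not_true, Bool.false_or, beq_iff_eq] at this
    simp only [xN, yL, if_pos h1, if_pos h2, if_pos h3, this]

/-- equal or adjacent -/
def Cl (a b : VV) : Prop := a = b ∨ Γ.Adj a b

theorem co_adj {a b c : VV} (ab : Γ.Adj a b) (ac : Γ.Adj a c) (bc : Γ.Adj b c) :
    Co (enc a) (enc b) (enc c) := by
  have n := fun {u v : VV} (h : Γ.Adj u v) => (adj_facts (enc_lt u) (enc_lt v) h).2
  have o := fun {u v w : VV} (p : Γ.Adj u v) (q : Γ.Adj u w) (r : Γ.Adj v w) =>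
    co_ord (enc_lt u) p q r
  have := n ab; have := n ac; have := n bc
  rcases lt_or_gt_of_ne (n ab) with p | p <;> rcases lt_or_gt_of_ne (n ac) with q | q <;>
    rcases lt_or_gt_of_ne (n bc) with r | r
  · exact o ab ac bc p r
  · exact (o ac ab bc.symm q r).sw2
  · omega
  · exact (o ac.symm bc.symm ab q p).sw1.sw2
  · exact (o ab.symm bc ac p q).sw1
  · omega
  · exact (o bc ab.symm ac.symm r q).sw2.sw1
  · exact (o bc.symm ac.symm ab.symm r p).sw1.sw2.sw1

theorem co_cl {a b c : VV} (ab : Cl a b) (ac : Cl a c) (bc : Cl b c) : Co (enc a) (enc b) (enc c) := by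
  rcases ab with rfl | ab
  · exact ⟨fun t _ => by simp [xN_self], fun t _ u _ _ => by simp [xN_self, yL_self]⟩
  rcases bc with rfl | bc
  · exact ⟨fun t _ => by simp [xN_self], fun t _ u _ _ => by simp [xN_self, yL_self]⟩
  rcases ac with rfl | ac
  · exact ⟨fun t _ => by rw [xN_self, xN_swap t (enc a) (enc b)]; ring, fun t _ u _ _ => by
      rw [yL_self, yL_swap t u (enc a) (enc b), xN_swap u (enc a) (enc b)]; ring⟩
  exact co_adj ab ac bc

/-- **the linear labels** -/
def x (t : Fin 3 × Bool) (a b : VV) : ℤ := xN (wn t) (enc a) (enc b)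

/-- **the quadratic labels** -/
def y (t u : Fin 3 × Bool) (a b : VV) : ℤ := yN (wn t) (wn u) (enc a) (enc b)

theorem x_self (t : Fin 3 × Bool) (a : VV) : x t a a = 0 := xN_self _ _

theorem y_self (t u : Fin 3 × Bool) (a : VV) : y t u a a = 0 := by simp [y, yN, xN_self, yL_self]


theorem x_coc (t : Fin 3 × Bool) {a b c : VV} (ab : Cl a b) (ac : Cl a c) (bc : Cl b c) :
    x t a c = x t a b + x t b c := (co_cl ab ac bc).1 _ (wn_lt t)

theorem bin_add (m n : ℤ) :
    (m + n) * (m + n - 1) / 2 = m * (m - 1) / 2 + n * (n - 1) / 2 + m * n := by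
  obtain ⟨i, hi⟩ := Int.even_mul_pred_self m
  obtain ⟨j, hj⟩ := Int.even_mul_pred_self n
  rw [show (m + n) * (m + n - 1) = m * (m - 1) + n * (n - 1) + 2 * (m * n) by ring, hi, hj]
  omega

theorem y_coc (t u : Fin 3 × Bool) {a b c : VV} (ab : Cl a b) (ac : Cl a c) (bc : Cl b c) :
    y t u a c = y t u a b + y t u b c + x t a b * x u b c := by
  have h := co_cl ab ac bc
  unfold y x yN
  split_ifs with e f
  · exact h.2 _ (wn_lt t) _ (wn_lt u) e
  · rw [h.2 _ (wn_lt u) _ (wn_lt t) f, h.1 _ (wn_lt t), h.1 _ (wn_lt u)]; ring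
  · rw [show wn u = wn t by omega, h.1 _ (wn_lt t), bin_add]

theorem y_diag (t : Fin 3 × Bool) (a b : VV) : y t t a b = x t a b * (x t a b - 1) / 2 := by
  simp [y, yN, x]

theorem y_add_swap {t u : Fin 3 × Bool} (h : t ≠ u) (a b : VV) :
    y t u a b + y u t a b = x t a b * x u a b := by
  have : wn t ≠ wn u := fun e => h (wn_inj e)
  unfold y x yN
  split_ifs <;> first | omega | ring

/-- the seam cocycle of `Fin 4` -/
def sm (p q : ℕ) : ℤ := bif p == 3 && q == 0 then 1 else bif p == 0 && q == 3 then -1 else 0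

/-- the seam cocycle of the first (`false`) or of the second (`true`) coordinate of the label torus -/
def se (b : Bool) (p q : Fin 16) : ℤ := bif b then sm (p % 4) (q % 4) else sm (p / 4) (q / 4)

/-- the sign of a triple of indices -/
def lc (i j k : Fin 3) : ℤ :=
  if j = i + 1 ∧ k = i + 2 then 1 else if j = i + 2 ∧ k = i + 1 then -1 else 0

/-- the sign of a side -/
def sg (b : Bool) : ℤ := bif b then -1 else 1

/-- the coefficient of `X_t X_u` in the longitude of the wall `s` -/
def cc (t u s : Fin 3 × Bool) : ℤ := lc t.1 u.1 s.1 * (sg t.2 * sg u.2 * sg s.2)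

/-- `cc` on codes -/
def ccN (t u s : ℕ) : ℤ :=
  bif (u / 2 == (t / 2 + 1) % 3) && (s / 2 == (t / 2 + 2) % 3) then (bif (t + u + s) % 2 == 0 then 1 else -1)
  else bif (u / 2 == (t / 2 + 2) % 3) && (s / 2 == (t / 2 + 1) % 3) then
    (bif (t + u + s) % 2 == 0 then -1 else 1) else 0

theorem cc_eq : ∀ t u s : Fin 3 × Bool, cc t u s = ccN (wn t) (wn u) (wn s) := by decide

/-- `se` on codes -/
def seN (b p q : ℕ) : ℤ := bif b == 1 then sm (p % 4) (q % 4) else sm (p / 4) (q / 4)

theorem chk_wall : al (fun s => al (fun p => alB (fun q => al (fun t =>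
    xN t (112 + 16 * s + p) (112 + 16 * s + q) == (bif t == s then seN (s % 2) p q else 0) &&
    al (fun u => !Nat.blt t u || yL t u (112 + 16 * s + p) (112 + 16 * s + q) ==
      ccN t u s * seN (1 - s % 2) p q) 6) 6) 16 (tg p)) 16) 6 = true := by
  decide +kernel

theorem seN_mer (s : Fin 3 × Bool) (p q : Fin 16) : seN (wn s % 2) p q = se s.2 p q := by
  obtain ⟨i, b⟩ := s
  cases b <;> simp [seN, se, wn, Nat.add_mod]

theorem seN_lon (s : Fin 3 × Bool) (p q : Fin 16) : seN (1 - wn s % 2) p q = se (!s.2) p q := by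
  obtain ⟨i, b⟩ := s
  cases b <;> simp [seN, se, wn, Nat.add_mod]

theorem se_self : ∀ (b : Bool) (p : Fin 16), se b p p = 0 := by decide


theorem wall_raw (s : Fin 3 × Bool) {p q : Fin 16} (h : Γ.Adj (.inr (s, p)) (.inr (s, q))) (t : ℕ)
    (ht : t < 6) : xN t (enc (.inr (s, p))) (enc (.inr (s, q))) = (if t = wn s then se s.2 p q else 0) ∧
      ∀ u < 6, t < u → yL t u (enc (.inr (s, p))) (enc (.inr (s, q))) =
        ccN t u (wn s) * se (!s.2) p q := by
  have k := al_iff.1 (alB_sound _ _ (al_iff.1 (al_iff.1 chk_wall _ (wn_lt s)) _ p.2) q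
    ((adj_wall s p q).1 h)) t ht
  rw [Bool.and_eq_true, beq_iff_eq, seN_mer, seN_lon] at k
  refine ⟨?_, fun u hu e => ?_⟩
  · rw [enc, enc, k.1]
    by_cases e : t = wn s
    · simp [e]
    · rw [if_neg e, show (t == wn s) = false by simpa using e, cond_false]
  · have := al_iff.1 k.2 u hu
    rwa [Nat.blt_eq.mpr e, Bool.not_true, Bool.false_or, beq_iff_eq] at this

/-- on the wall `s` the linear label is the meridian seam -/
theorem x_wall (t s : Fin 3 × Bool) {p q : Fin 16} (h : Cl (.inr (s, p)) (.inr (s, q))) :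
    x t (.inr (s, p)) (.inr (s, q)) = if t = s then se s.2 p q else 0 := by
  rcases h with h | h
  · obtain rfl : p = q := by simpa using h
    simp [x_self, se_self]
  · rw [x, (wall_raw s h _ (wn_lt t)).1]; simp [wn_inj.eq_iff]

theorem ccN_anti : ∀ t u s : Fin 3 × Bool, ccN (wn t) (wn u) (wn s) = -ccN (wn u) (wn t) (wn s) := by
  decide

theorem cc_anti (t u s : Fin 3 × Bool) : cc t u s = -cc u t s := by rw [cc_eq, cc_eq, ccN_anti]


theorem cc_self : ∀ t s : Fin 3 × Bool, cc t t s = 0 := by decide

/-- on the wall `s` the quadratic label is that of `X_s ^ mer * l_s ^ lon` -/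
theorem y_wall (t u s : Fin 3 × Bool) {p q : Fin 16} (h : Cl (.inr (s, p)) (.inr (s, q))) :
    y t u (.inr (s, p)) (.inr (s, q)) =
      (if t = s ∧ u = s then se s.2 p q * (se s.2 p q - 1) / 2 else 0) + cc t u s * se (!s.2) p q := by
  by_cases e : t = u
  · subst e
    rw [y_diag, x_wall t s h, cc_self]
    by_cases f : t = s <;> simp [f]
  have n : ¬ (t = s ∧ u = s) := fun k => e (k.1.trans k.2.symm)
  rw [if_neg n, zero_add]
  have key : ∀ t u : Fin 3 × Bool, wn t < wn u →
      y t u (.inr (s, p)) (.inr (s, q)) = cc t u s * se (!s.2) p q := fun t u l => by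
    rcases h with h | h
    · obtain rfl : p = q := by simpa using h
      simp [y_self, se_self]
    · rw [y, yN, if_pos l, (wall_raw s h _ (wn_lt t)).2 _ (wn_lt u) l, cc_eq]
  rcases lt_or_gt_of_ne (show wn t ≠ wn u from fun k => e (wn_inj k)) with l | l
  · exact key t u l
  · have a := y_add_swap e (.inr (s, p)) (.inr (s, q))
    rw [key u t l, x_wall t s h, x_wall u s h, cc_anti u t] at a
    have z : (if t = s then se s.2 p q else 0) * (if u = s then se s.2 p q else 0) = 0 := by
      by_cases f : t = s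
      · rw [if_neg (fun k => n ⟨f, k⟩), mul_zero]
      · rw [if_neg f, zero_mul]
    rw [z] at a
    linear_combination a


end Crest.Agent.N255.Gd
private theorem rz_14577ad32b : type_of% @_root_.Crest.Agent.N255.Gd.alB.eq_def := @_root_.Crest.Agent.N255.Gd.alB.eq_def -- L221
private theorem rz_18c799334a : type_of% @_root_.Crest.Agent.N255.Gd.alB.eq_1 := @_root_.Crest.Agent.N255.Gd.alB.eq_1 -- L221
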